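import Vale.Agent.P174.HowieExt

open Vale.Agent.P174.Howie

universe u

/-- Howie's conjecture mod `p` is closed under extensions with residually finite-`p` quotient and
arbitrary kernel, under local and residual properties, and holds for abelian groups; hence
Howie's conjecture for groups built this way for arbitrarily large primes, in particular for
poly-(residually finite-`p`)-over-abelian groups. -/
theorem Vale.Agent.Results.P174.ExtensionClosure.result :
    (∀ p : ℕ, p.Prime →
      (∀ (G : Type u) [Group G], (∀ a b : G, a * b = b * a) → HowieModP p G) ∧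
      (∀ (G : Type u) [Group G] (N : Subgroup G) [N.Normal],
        HowieModP p N → ResiduallyFiniteP p (G ⧸ N) → HowieModP p G) ∧
      (∀ (G : Type u) [Group G], (∀ K : Subgroup G, K.FG → HowieModP p K) → HowieModP p G) ∧
      (∀ (G : Type u) [Group G], (∀ g : G, g ≠ 1 → ∃ (L : Type u) (_ : Group L),
        HowieModP p L ∧ ∃ f : G →* L, f g ≠ 1) → HowieModP p G)) ∧
    (∀ (G : Type u) [Group G],
      ((∀ N : ℕ, ∃ p, N < p ∧ p.Prime ∧ HowieModP p G) ∨
        (∀ N : ℕ, ∃ p, N < p ∧ p.Prime ∧ ∃ (k : ℕ) (S : ℕ → Subgroup G),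
          S k = ⊤ ∧ (∀ a ∈ S 0, ∀ b ∈ S 0, a * b = b * a) ∧
            ∀ i < k, S i ≤ S (i + 1) ∧ ∃ _ : ((S i).subgroupOf (S (i + 1))).Normal,
              ResiduallyFiniteP p (S (i + 1) ⧸ (S i).subgroupOf (S (i + 1))))) →
      ∀ (m n : ℕ) (w : Fin m → Monoid.Coprod G (FreeGroup (Fin n))),
        LinearIndependent ℚ (fun i j => (expMatrix w i j : ℚ)) → SolvableOver w) := by
  refine ⟨fun p hp => ?_, fun G _ hG m n w hw => ?_⟩
  · have := Fact.mk hp
    exact ⟨fun G _ h => HowieModP.of_comm h, fun G _ N _ hN hQ => HowieModP.extension p N hN hQ,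
      fun G _ h => HowieModP.of_local h, fun G _ h => HowieModP.of_residual h⟩
  · obtain ⟨N, hN⟩ := independent_mod_large_prime (expMatrix w) hw
    rcases hG with hG | hG
    · obtain ⟨p, hp, hpp, hGp⟩ := hG N
      exact hGp m n w (hN p hp hpp)
    · obtain ⟨p, hp, hpp, k, S, htop, h0, hS⟩ := hG N
      have := Fact.mk hpp
      have hk : HowieModP p (S k) := HowieModP.of_series k S h0 hS
      rw [htop] at hk
      exact hk.of_injective (Subgroup.topEquiv (G := G)).symm.toMonoidHom
        (Subgroup.topEquiv (G := G)).symm.injective m n w (hN p hp hpp)
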